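import Mathlib
import Vale.Agent.Lib.P110F.Defs

set_option autoImplicit false

/-!
P130B: definitions for sums `sum e1 ((j h + s j) x)` that are flat in mean (Banach's problem).
-/

namespace Vale.Agent.P130B

open MeasureTheory Vale.Agent.P110F
open scoped ComplexConjugate

/-- The function `y ↦ e1 (x A(y))`. -/
noncomputable def FA {k : ℕ} (A : UnitAddTorus (Fin k) → ℕ) (x : ℝ) (y : UnitAddTorus (Fin k)) : ℂ :=
  e1 (x * (A y : ℝ))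

/-- Its mean. -/
noncomputable def kap {k : ℕ} (A : UnitAddTorus (Fin k) → ℕ) (x : ℝ) : ℂ :=
  UnitAddTorus.mFourierCoeff (FA A x) 0

/-- `Sp` and its negatives. -/
def VV {k : ℕ} (Sp : Finset (Fin k → ℤ)) : Finset (Fin k → ℤ) := Sp ∪ Sp.image (fun m => -m)

/-- The part of `FA A x` with frequencies in `VV Sp`. -/
noncomputable def EA {k : ℕ} (A : UnitAddTorus (Fin k) → ℕ) (Sp : Finset (Fin k → ℤ)) (x : ℝ)
    (y : UnitAddTorus (Fin k)) : ℂ :=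
  ∑ m ∈ VV Sp, UnitAddTorus.mFourierCoeff (FA A x) m * UnitAddTorus.mFourier m y

/-- The remainder. -/
noncomputable def RA {k : ℕ} (A : UnitAddTorus (Fin k) → ℕ) (Sp : Finset (Fin k → ℤ)) (x : ℝ)
    (y : UnitAddTorus (Fin k)) : ℂ :=
  FA A x y - kap A x - EA A Sp x y

/-- What is needed from the integer valued function. -/
structure GoodA (ε η : ℝ) (M k : ℕ) (A : UnitAddTorus (Fin k) → ℕ) (Sp : Finset (Fin k → ℤ)) :
    Prop where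
  meas : Measurable A
  le : ∀ y, A y ≤ M
  lno : ∀ m ∈ Sp, LNO m
  energy : ∀ x : ℝ, 1 - ε ≤ ‖kap A x‖ ^ 2 +
    ∑ m ∈ VV Sp, ‖UnitAddTorus.mFourierCoeff (FA A x) m‖ ^ 2
  mean : ∀ x : ℝ, η ≤ x → x ≤ 1 - η → ‖kap A x‖ ≤ ε

/-- A trigonometric weight of degree at most `d`: a nonnegative real trigonometric polynomial with
integral one. -/
structure Wgt (d : ℕ) (Q : ℝ → ℝ) : Prop where
  nonneg : ∀ x, 0 ≤ Q x
  poly : ∃ q : ℤ → ℂ, ∀ x, (Q x : ℂ) = ∑ a ∈ Finset.Icc (-(d : ℤ)) d, q a * e1 (a * x)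
  one : ∫ x in (0 : ℝ)..1, Q x = 1

/-- The system of time cells `ι` and frequency pieces `P`. -/
structure Cells (ε : ℝ) (k n R : ℕ) (Sp : Finset (Fin k → ℤ)) (c : ℝ) (ι P : Type) [Fintype ι]
    [Fintype P] where
  H : ι → Fin k → Matrix (Fin n) (Fin n) ℤ
  β : ι → Fin k → Fin n → ℝ
  G : P → Matrix (Fin n) (Fin n) ℤ
  g : P → Fin n → ℝ
  t : P → (Fin k → ℤ) → ι
  sl : ι → Fin R × (Fin n → Fin 4)
  C : P → ℤ
  Y : P → Fin k → ℤ
  sP : P → Fin n → Fin 4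
  c_pos : 0 < c
  sl_inj : Function.Injective sl
  R_le : (R : ℝ) * 4 ^ n ≤ (1 + ε) * Fintype.card ι
  card_P : (1 - ε) * Fintype.card ι ≤ Fintype.card P
  one_le : 1 ≤ (1 + ε) * Fintype.card ι * c ^ n
  symm : ∀ p, (G p).IsSymm
  det : ∀ p, |(G p).det| = 1
  row : ∀ p a, ∑ a', |scl c (G p) a a'| ≤ 1 / 4
  sep : ∀ p q, p ≠ q → Sep (scl c (G p)) (g p) (scl c (G q)) (g q)
  H_eq : ∀ p, ∀ m ∈ VV Sp, ∑ i, m i • H (t p m) i = G p
  β_eq : ∀ p, ∀ m ∈ VV Sp, ∀ a, ∑ i, (m i : ℝ) * β (t p m) i a = g p a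
  t_inj : ∀ m ∈ VV Sp, Function.Injective fun p => t p m
  pos : ∀ p, ∀ m ∈ VV Sp, (((sl (t p m)).1 : ℕ) : ℤ) = C p + ∑ i, m i * Y p i
  pos2 : ∀ p, ∀ m ∈ VV Sp, (sl (t p m)).2 = sP p

end Vale.Agent.P130B
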